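import Vale.Agent.P354SP.Step
import Vale.Agent.P354SR.Short
import Vale.Agent.P354QF.Strip
import Vale.Agent.P354M2.Extr

namespace Vale.Agent.P354SP

theorem step : P354I.STEP := step_of P354SR.short P354QF.strip P354M2.extr

end Vale.Agent.P354SP
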