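import Vale.Agent.P354I.Core2

/-!
Weighted bounds of all orders for the chart data.
-/

namespace Vale.Agent.P354SP

open Vale.Agent.P354I
open Vale.Agent.P354J (Ud)

/-- FINW: the chart data of any datum have finite weighted bounds of every order. -/
def FINW : Prop :=
  ∀ p0 k ε0 δ1 C K kd (s : ℝ) (m : ℕ), IsKF p0 k ε0 δ1 C K kd → 0 < s →
    ∀ p ∈ Metric.ball p0 ε0, ∀ q ∈ Metric.ball p0 ε0, ∀ t ≥ 0, ∀ d,
      IsDat (mix (kd p t) (kd q t)) s d → ∀ σ,
        ∃ c, WB s m c (wd (KI (K p t σ) (K q t σ)) (Ud d σ))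

end Vale.Agent.P354SP
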