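import Vale.Agent.P354SP.Tool
import Vale.Agent.P354QF.Full2
import Vale.Agent.P354N2.Near
import Vale.Agent.P354P.Compat
import Vale.Agent.P354DG.Gen2

/-!
The estimates of the data induced at the end of a short step.
-/

open scoped ContDiff
open Set Filter Topology

noncomputable section

namespace Vale.Agent.P354SP

open Vale.Agent.P354n (R4)
open Vale.Agent.P354H (X3 Sb sl)
open Vale.Agent.P354C
open Vale.Agent.P354A (cmp U0)
open Vale.Agent.P354I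
open Vale.Agent.P354J (Bd Tm wt pb Ind Ud PDy)
open Vale.Agent.P354JP (bd_add bd_mul wt_pos)
open Vale.Agent.P354T (DSm)

theorem wb_bd {s c : ℝ} {m : ℕ} {w : X3 → Ix → ℝ} :
    WB s m c w ↔ ∀ i z, Bd m (fun y => w y i) z (c * wt s z) := by
  simp only [P354IN.wt_eq]
  exact ⟨fun h i z α hα => h i α hα z, fun h i α hα z => h i z α hα⟩

theorem sl_sm {V : R4 → Ix → ℝ} (h : SmU V univ) (t : ℝ) (i : Ix) :
    ContDiff ℝ ∞ fun y : X3 => V (t, y) i :=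
  (contDiffOn_univ.1 (h i)).comp (contDiff_const.prodMk contDiff_id)

theorem half (c : ℝ) (m : ℕ) (B : ℝ) {S s : ℝ} (hs : 0 ≤ s) (hS : 0 ≤ S) : ∃ C, 0 ≤ C ∧
    ∀ (ε η : ℝ) (z : X3) (φ : X3 → ℝ) (χ V A D w : X3 → Ix → ℝ), 0 ≤ ε → 0 ≤ η → ContDiff ℝ ∞ φ →
      Bd m φ z S → (∀ i, Tm m B (η * wt s z) z (fun y => V y i) fun y => V y i - w y i) →
      (∀ i, (ContDiff ℝ ∞ fun y => A y i) ∧ Bd m (fun y => A y i) z B ∧
        (ContDiff ℝ ∞ fun y => χ y i) ∧ Bd m (fun y => χ y i) z S ∧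
        (ContDiff ℝ ∞ fun y => D y i) ∧ Bd m (fun y => D y i) z ε) →
      (∀ y i, V y i - A y i = χ y i * D y i + w y i) →
      (φ =ᶠ[𝓝 z] 0 ∨ (∀ i, ∀ᶠ y in 𝓝 z, χ y i = 0) ∨ |z.1| ≤ 2) →
      ∀ j, Bd m (fun y => φ y * (FF c j (V y) - FF c j (A y))) z (C * (ε + η) * wt s z) := by
  obtain ⟨C, c0, hC⟩ := lipJ c m B
  have p5 : (0 : ℝ) ≤ 2 ^ m * S * 5 ^ (s / 2) := by positivity
  refine ⟨2 ^ m * S * C * (2 ^ m * S * 5 ^ (s / 2) + 1), by positivity,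
    fun ε η z φ χ V A D w e0 e1 sφ bφ hV hA he h j => ?_⟩
  have w0 := (wt_pos s z).le
  rcases h with h | h
  · exact bd_null (h.mono fun y hy => by simp [hy]) (by positivity)
  have t := hC ((2 ^ m * S * 5 ^ (s / 2) + 1) * (ε + η) * wt s z) z V A (fun i => by
    obtain ⟨a1, a2, a3, a4, a5, a6⟩ := hA i
    refine ⟨(hV i).sf, a1, (hV i).bf, a2, ?_⟩
    have b1 := bd_wt hs (bd_mul a3 a5 a4 a6)
      (h.imp_left fun h => (h i).mono fun y hy => by simp [hy])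
    refine bd_ev (Eventually.of_forall fun y => ?_)
      ((bd_add (a3.mul a5) ((hV i).sf.sub (hV i).sg) b1 (hV i).bd).mono le_rfl ?_)
    · simp only [he, Pi.add_apply, sub_sub_cancel]
    · nlinarith [mul_nonneg e0 w0, mul_nonneg p5 (mul_nonneg e1 w0)]) j
  have s1 := (FF_sm c j).comp (contDiff_pi.2 fun i => (hV i).sf)
  have s2 := (FF_sm c j).comp (contDiff_pi.2 fun i => (hA i).1)
  exact (bd_mul sφ (s1.sub s2) bφ t).mono le_rfl (le_of_eq (by ring))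

/-- The distance of the new data to the interpolated reference data. -/
theorem est (hX : MIX) (hP : PBI) (c : ℝ) (m : ℕ) (B : ℝ) {s : ℝ} (hs : 0 ≤ s) : ∃ C, 0 ≤ C ∧
    ∀ (ε η τ : ℝ) (A A' : Bool → R4 → Ix → ℝ) (w : Bool → ℕ → R4 → Ix → ℝ) (k k' d : Dat),
      0 ≤ ε → 0 ≤ η → η ≤ B → |τ| ≤ 1 → DSm d → DSm (mix k k') →
      (∀ σ, SmU (A σ) univ ∧ SmU (A' σ) univ ∧ ∀ i, Sb m (fun z => A σ (τ, z) i) B ∧
        Sb m (fun z => A' σ (τ, z) i) B ∧ Sb m (fun z => A σ (τ, z) i - A' σ (τ, z) i) ε) →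
      (∀ σ n, SmU (w σ n) univ ∧ WB s m η (sl (w σ n) τ)) →
      (∀ σ z, r2 z ≤ 2 → Rep c k σ z (sl (A σ) τ) ∧ Rep c k' σ z (sl (A' σ) τ) ∧
        ∃ n, Rep c d σ z (sl (KI (A σ) (A' σ) + w σ n) τ)) →
      pm s m d (mix k k') ≤ ENNReal.ofReal (C * (ε + η)) := by
  obtain ⟨S, s0, hS⟩ := st_bd m
  obtain ⟨C, c0, hC⟩ := half c m ((2 * 2 ^ m * S + 1) * B) hs s0
  obtain ⟨C1, c1, h1⟩ := pm_of hP m
  refine ⟨C1 * (2 * C), by positivity, fun ε η τ A A' w k k' d e0 e1 eB hτ sd sm hA hw hR => ?_⟩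
  rw [mul_assoc]
  refine h1 s _ _ _ (by positivity) sd sm fun σ z hz j => ?_
  obtain ⟨r1, r2, n, r3⟩ := hR σ z hz
  obtain ⟨a1, a2, a3⟩ := hA σ
  have b0 := e1.trans eB
  have q0 : 0 ≤ 2 * 2 ^ m * S * B := by positivity
  have ht := fun i => abs_le.1 ((P354SR.sI_abs i τ).trans hτ)
  have eV : ∀ y i, sl (KI (A σ) (A' σ) + w σ n) τ y i = st (P354SR.sI i * τ) y * A σ (τ, y) i +
      (1 - st (P354SR.sI i * τ) y) * A' σ (τ, y) i + w σ n (τ, y) i := fun y i => by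
    simp only [sl, Pi.add_apply, KI, P354SR.psi_eq, st]
  have s1 := fun i => st_sm (P354SR.sI i * τ)
  have s2 := fun i => (contDiff_const (c := (1 : ℝ))).sub (s1 i)
  have hV : ∀ i, Tm m ((2 * 2 ^ m * S + 1) * B) (η * wt s z) z
      (fun y => sl (KI (A σ) (A' σ) + w σ n) τ y i)
      fun y => sl (KI (A σ) (A' σ) + w σ n) τ y i - w σ n (τ, y) i := fun i => by
    have u1 := ((s1 i).mul (sl_sm a1 τ i)).add ((s2 i).mul (sl_sm a2 τ i))
    have u2 := bd_add ((s1 i).mul (sl_sm a1 τ i)) ((s2 i).mul (sl_sm a2 τ i))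
      (bd_mul (s1 i) (sl_sm a1 τ i) (hS _ z).1 fun α h => (a3 i).1 α h z)
      (bd_mul (s2 i) (sl_sm a2 τ i) (hS _ z).2 fun α h => (a3 i).2.1 α h z)
    have u3 := wb_bd.1 (hw σ n).2 i z
    have u4 := mul_le_of_le_one_right e1 (P354IN.wt_le hs z)
    simp only [eV, add_sub_cancel_right]
    refine ⟨u1.add (sl_sm (hw σ n).1 τ i), u1, (bd_add u1 (sl_sm (hw σ n).1 τ i) u2 u3).mono le_rfl
      (by linarith), u2.mono le_rfl (by linarith), ?_⟩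
    simp only [add_sub_cancel_left]
    exact u3
  have t1 := hC ε η z (st 0) (fun y i => 1 - st (P354SR.sI i * τ) y) _ (sl (A σ) τ)
    (fun y i => -(A σ (τ, y) i - A' σ (τ, y) i)) (sl (w σ n) τ) e0 e1 (st_sm 0) (hS 0 z).1 hV
    (fun i => ⟨sl_sm a1 τ i, Bd.mono (fun α h => (a3 i).1 α h z) le_rfl (by linarith), s2 i,
      (hS _ z).2, ((sl_sm a1 τ i).sub (sl_sm a2 τ i)).neg, bd_neg fun α h => (a3 i).2.2 α h z⟩)
    (fun y i => by rw [eV]; simp only [sl]; ring) (by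
      rcases lt_or_ge z.1 0 with h | h
      · exact Or.inl (st_zero (by linarith))
      rcases lt_or_ge 2 z.1 with h' | h'
      · exact Or.inr (Or.inl fun i => (st_one (by linarith [(ht i).1])).mono fun y hy =>
          sub_eq_zero.2 hy.symm)
      exact Or.inr (Or.inr (abs_le.2 ⟨by linarith, h'⟩))) j
  have t2 := hC ε η z (fun y => 1 - st 0 y) (fun y i => st (P354SR.sI i * τ) y) _ (sl (A' σ) τ)
    (fun y i => A σ (τ, y) i - A' σ (τ, y) i) (sl (w σ n) τ) e0 e1 (contDiff_const.sub (st_sm 0))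
    (hS 0 z).2 hV
    (fun i => ⟨sl_sm a2 τ i, Bd.mono (fun α h => (a3 i).2.1 α h z) le_rfl (by linarith), s1 i,
      (hS _ z).1, (sl_sm a1 τ i).sub (sl_sm a2 τ i), fun α h => (a3 i).2.2 α h z⟩)
    (fun y i => by rw [eV]; simp only [sl]; ring) (by
      rcases lt_or_ge 1 z.1 with h | h
      · exact Or.inl ((st_one (by linarith)).mono fun y hy => sub_eq_zero.2 hy.symm)
      rcases lt_or_ge z.1 (-1) with h' | h'
      · exact Or.inr (Or.inl fun i => st_zero (by linarith [(ht i).2]))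
      exact Or.inr (Or.inr (abs_le.2 ⟨by linarith, by linarith⟩))) j
  have f1 := (FF_sm c j).comp (contDiff_pi.2 fun i => (hV i).sf)
  have f2 := (FF_sm c j).comp (contDiff_pi.2 (sl_sm a1 τ))
  have f3 := (FF_sm c j).comp (contDiff_pi.2 (sl_sm a2 τ))
  refine bd_ev ?_ ((bd_add ((st_sm 0).mul (f1.sub f2))
    ((contDiff_const.sub (st_sm 0)).mul (f1.sub f3)) t1 t2).mono le_rfl (le_of_eq (by ring)))
  filter_upwards [r1 j, r2 j, r3 j] with y y1 y2 y3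
  simp only [pbj_mix hX, y1, y2, y3, Pi.add_apply, st, add_zero, Function.comp_def, sl]
  ring

/-- The distance of two new data. -/
theorem est2 (hP : PBI) (c : ℝ) (m : ℕ) (B : ℝ) : ∃ C, 0 ≤ C ∧ ∀ (s η : ℝ) (d d' : Dat), 0 ≤ η →
    DSm d → DSm d' → (∀ σ z, r2 z ≤ 2 → ∃ V V', Rep c d σ z V ∧ Rep c d' σ z V' ∧
      ∀ i, Tm m B (η * wt s z) z (fun y => V y i) fun y => V' y i) →
    pm s m d d' ≤ ENNReal.ofReal (C * η) := by
  obtain ⟨C, c0, hC⟩ := lipJ c m B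
  obtain ⟨C1, c1, h1⟩ := pm_of hP m
  refine ⟨C1 * C, by positivity, fun s η d d' e0 sd sd' h => ?_⟩
  rw [mul_assoc]
  refine h1 s _ _ _ (by positivity) sd sd' fun σ z hz j => ?_
  obtain ⟨V, V', r1, r2, t⟩ := h σ z hz
  rw [mul_assoc]
  refine bd_ev ?_ (hC _ z V V' t j)
  filter_upwards [r1 j, r2 j] with y y1 y2
  rw [y1, y2]

theorem seg {s t : ℝ} (h : s ∈ uIcc 0 t) : |s| ≤ |t| ∧ |t - s| ≤ |t| := by
  have h1 := abs_sub_left_of_mem_uIcc h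
  have h2 := abs_sub_right_of_mem_uIcc h
  rw [sub_zero] at h1 h2
  rw [sub_zero] at h1
  exact ⟨h1, h2⟩

theorem r2_ev {z : X3} (h : r2 z ≤ 2) : ∀ᶠ y in 𝓝 z, r2 y < 4 :=
  P354IN.r2_cont.continuousAt.eventually_lt_const (by linarith)

/-- The data at the end of the step. -/
theorem ex (hS : STRIP) (hE : EXTR) (cb : ℝ) : ∃ μ > 0, ∀ δ ∈ Ioc 0 μ, ∀ (δ' c0 τ : ℝ) (d : Dat)
    (K f : Bool → R4 → Ix → ℝ) (w : Bool → ℕ → R4 → Ix → ℝ), δ ≤ δ' → δ ≤ 1 → 0 < c0 → |τ| < δ →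
    PDy d → (∀ σ, SmU (K σ) univ ∧ (∀ p : R4, |p.1| ≤ δ → ∀ i, |K σ p i| ≤ cb) ∧
      (∀ p : R4, |p.1| < δ → r2 p.2 < 16 → ∀ i, res (K σ p) (dfr (K σ) p) i = f σ p i) ∧
      IsInit (Ud d σ) ∧ Fam0 δ' cb (K σ) (f σ) (wd (K σ) (Ud d σ)) (w σ)) →
    (∀ σ (z : X3), ‖z.2‖ ≤ 4 → c0 ≤ detP (Ud d σ z)) →
    ∃ d', PDy d' ∧ P354I.Con d' ∧ Ev τ d d' ∧ ∀ σ z, r2 z ≤ 2 → ∀ n : ℕ, |z.1| + 2 ≤ n →
      Rep (Real.exp (-(6 * (cb + cb))) * c0) d' σ z (sl (K σ + w σ n) τ) := by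
  obtain ⟨μ, m0, hμ⟩ := hS cb
  refine ⟨μ, m0, fun δ hδ δ' c0 τ d K f w h1 h2 p0 hτ hd h hc => ?_⟩
  obtain ⟨u1, u2, u3⟩ := hμ δ hδ δ' d K f w h1 hd h
  obtain ⟨d', v1, v2, v3⟩ := hE _ _ _ u1 τ (abs_lt.1 hτ)
  refine ⟨d', v1, v2, ⟨-δ, δ, _, lt_min (by linarith [hδ.1]) (abs_lt.1 hτ).1,
    max_lt hδ.1 (abs_lt.1 hτ).2, u1, u2, v3⟩, fun σ z hz n hn => ?_⟩
  obtain ⟨k1, k2, k3, -, F⟩ := h σ
  have sV : SmU (K σ + w σ n) univ := fun i => (k1 i).add (F.smooth n i).1.contDiffOn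
  have b0 := (abs_nonneg _).trans (k2 0 (by simpa using hδ.1.le) Ix.O)
  refine rep_of (by positivity) (sl_sm sV τ) (det_low sV (by linarith) (by positivity)
    (fun s hs => ?_) ?_) ?_
  · have a1 := (seg hs).1.trans_lt hτ
    have a2 : s ∈ Icc (-δ') δ' := abs_le.1 (by linarith)
    refine ⟨P354QF.sol_eq (F.eqn n _ a2) ?_ (k3 _ a1 (lt_of_le_of_lt hz (by norm_num))), fun i =>
      (abs_add_le _ _).trans (add_le_add (k2 _ a1.le i) (F.bd n s a2 i [] (by simp) _))⟩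
    have := abs_add_le z.1 (τ - s)
    rw [← add_sub_assoc] at this
    linarith [(seg hs).2]
  · rw [P354QF.init_eq (z := (z.1 + τ, z.2)) (F.init n _) (by
      simp only; linarith [abs_add_le z.1 τ]) (le_trans hz (by norm_num))]
    exact hc σ _ (P354IN.norm_le (z := z) (hz.trans (by norm_num)))
  · filter_upwards [r2_ev hz, (continuous_fst.abs.continuousAt (x := z)).eventually_lt_const
      (lt_add_one _)] with y y1 y2
    have : Ind (K σ (τ, y) + glue (w σ) (τ, y)) _ _ := v3 σ y y1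
    rwa [u3 σ n (τ, y) hτ (by simp only; linarith)] at this

section
variable {p0 : P3} {k ε0 δ1 : ℝ} {C : ℕ → ℝ} {K : P3 → ℝ → Bool → R4 → Ix → ℝ}
  {kd : P3 → ℝ → Dat}

theorem sb_U0 {m : ℕ} {f : X3 → ℝ} {i : Ix} {c e : ℝ} (hk : 0 < k)
    (h : Sb m (fun z => f z - U0 k i) (c * e)) (e0 : 0 ≤ e) (he : e ≤ Real.exp (k / 2)) :
    Sb m f (|c| * Real.exp (k / 2) + k / 2) := fun α hα z =>
  (bd_const (fun α hα => h α hα z) α hα).trans (add_le_add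
    (mul_le_mul (le_abs_self c) he e0 (abs_nonneg c)) (by
      cases i <;> simp [U0, abs_div, abs_of_pos hk] <;> positivity))

theorem kf_bd (F : IsKF p0 k ε0 δ1 C K kd) {p : P3} (hp : p ∈ Metric.ball p0 ε0) {t τ : ℝ}
    (ht : 0 ≤ t) (hτ : -1 ≤ τ) (σ : Bool) (m : ℕ) (i : Ix) :
    Sb m (fun z => K p t σ (τ, z) i) (|C m| * Real.exp (k / 2) + k / 2) :=
  sb_U0 F.pos.1 (F.bound p hp t ht σ m τ hτ i).1 (Real.exp_pos _).le
    (Real.exp_le_exp.2 (by nlinarith [F.pos.1]))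

theorem bs_bd {ρ ε t : ℝ} {n : ℕ} {K f : R4 → Ix → ℝ} (hk : 0 < k) (h : IsBS k ρ δ1 ε n C K f)
    (hρ : ρ ≤ 1) (ht : -1 ≤ t) (m : ℕ) (i : Ix) :
    Sb m (fun z => K (t, z) i) (|C m| * Real.exp (k / 2) + k / 2) :=
  sb_U0 hk (mul_assoc (C m) _ _ ▸ h.bound m t ht i) (by positivity)
    ((mul_le_of_le_one_left (Real.exp_pos _).le (Real.sqrt_le_one.2 hρ)).trans
      (Real.exp_le_exp.2 (by nlinarith)))

theorem rep_kf (F : IsKF p0 k ε0 δ1 C K kd) {p : P3} (hp : p ∈ Metric.ball p0 ε0) {t t' c0 B : ℝ}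
    (ht : 0 ≤ t) (ht' : 0 ≤ t') (h : |t' - t| < δ1) (p0 : 0 < c0)
    (hB : |C 0| * Real.exp (k / 2) + k / 2 ≤ B) (σ : Bool)
    (hc : ∀ z : X3, ‖z.2‖ ≤ 4 → c0 ≤ detP (Ud (kd p t) σ z)) {z : X3} (hz : r2 z ≤ 2) :
    Rep (Real.exp (-(6 * B)) * c0) (kd p t') σ z (sl (K p t σ) (t' - t)) := by
  have sV := (F.smooth p hp t ht σ).1
  have k0 := F.pos.1
  have d1 := F.pos.2.2.2
  refine rep_of (by positivity) (sl_sm sV _) (det_low sV (by linarith)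
    (le_trans (by positivity) hB) (fun s hs => ?_) ?_) ?_
  · have a1 := (abs_lt.1 ((seg hs).1.trans_lt h)).1
    exact ⟨P354P.Full.solves (F.full p hp t ht σ _ a1 (lt_of_le_of_lt hz (by norm_num))).1,
      fun i => (kf_bd F hp ht (by linarith) σ 0 i [] le_rfl _).trans hB⟩
  · rw [F.init p hp t ht σ (z.1 + (t' - t), z.2) (lt_of_le_of_lt hz (by norm_num))]
    exact hc _ (P354IN.norm_le (z := z) (hz.trans (by norm_num)))
  · filter_upwards [r2_ev hz] with y hy using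
      F.ind p hp t ht t' ht' (abs_lt.1 h).1 σ y (hy.trans (by norm_num))

end

theorem f_wb {s t e : ℝ} {m : ℕ} {f : R4 → Ix → ℝ} (hs : 0 ≤ s) (ht : |t| ≤ 1)
    (h0 : ∀ p : R4, 25 ≤ r2 p.2 ∨ |p.1| + 1 ≤ |p.2.1| → f p = 0)
    (h : ∀ i, Sb m (fun z => f (t, z) i) e) : WB s m (e * 5 ^ (s / 2)) (sl f t) :=
  wb_bd.2 fun i z => bd_wt hs (fun α hα => h i α hα z) <| (lt_or_ge 2 |z.1|).imp_left fun hz =>
    ((continuous_fst.abs.continuousAt (x := z)).eventually_const_lt hz).mono fun y hy =>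
      congrFun (h0 (t, y) (Or.inr (by simp only; linarith))) i

/-- The chart data depend on the data in a locally Lipschitz way. -/
theorem lip_wd (hX : MIX) {k1 k2 : Dat} (h1 : Sta k1) (h2 : Sta k2) {s : ℝ} (hs : 0 < s)
    (d : DS (mix k1 k2) s) (m : ℕ) : ∃ C η : ℝ, 0 ≤ C ∧ 0 < η ∧
      ∀ (d' : DS (mix k1 k2) s) (ν : ℝ), 0 ≤ ν → ν ≤ η → pm s (m + 2) d'.1 d.1 ≤ ENNReal.ofReal ν →
        ∀ σ K, WB s m (C * ν) (wd K (Ud d'.1 σ) - wd K (Ud d.1 σ)) := by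
  obtain ⟨c, c0, B, g⟩ := P354DG.geo_all hX h1 h2 hs d (m + 2)
  obtain ⟨η, e0, hη⟩ := hX.2.2.1 c B (m + 2) c0
  obtain ⟨C, c1, C0, -, hC⟩ := P354M2.lip2 (c / 2) (B + 1) 4 m (half_pos c0)
  obtain ⟨C2, c2, hY⟩ := P354N2.cy_bd m
  refine ⟨C2 * C, η, by positivity, e0, fun d' ν n0 n1 h σ K => wb_bd.2 fun i z => ?_⟩
  have t := fun z hz => (hC s ν _ _ hs.le n0
    (hη s _ _ hs.le g ⟨d'.2.smooth, d'.2.pos⟩ (h.trans (ENNReal.ofReal_le_ofReal n1)))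
    (P354N2.geo_mono g (half_le_self c0.le) (le_add_of_nonneg_right zero_le_one)) h σ z hz).2.2 i
  refine bd_ev (Eventually.of_forall fun y => ?_) ((hY _ _ ((t 0 (by simp)).sf.sub (t 0 (by simp)).sg)
    (fun z => mul_nonneg (by positivity) (wt_pos s z).le) (fun z hz => (t z hz).bd) z).mono le_rfl
      (le_of_eq (by ring)))
  simp only [Pi.sub_apply, wd]
  ring

end Vale.Agent.P354SP
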