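import Vale.Agent.P354SP.Est
import Vale.Agent.P354N2.Finw
import Vale.Agent.P354N2.Pbi
import Vale.Agent.P354M2.Mix
import Vale.Agent.P354E2.Short

/-!
The short step: STEP from SHORT, STRIP and EXTR.
-/

open scoped ContDiff
open Set Filter Topology

noncomputable section

namespace Vale.Agent.P354SP

open Vale.Agent.P354n (R4)
open Vale.Agent.P354H (X3 Sb sl)
open Vale.Agent.P354C
open Vale.Agent.P354A (cmp U0)
open Vale.Agent.P354I
open Vale.Agent.P354J (Bd Tm wt pb Ind Ud PDy)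
open Vale.Agent.P354JP (bd_add bd_mul wt_pos)
open Vale.Agent.P354E2 (WB.mono)

/-- The second and the third part of SHORT. -/
def Q2 (s δ cb : ℝ) (G : ℕ → ℝ → ℝ) (K f : R4 → Ix → ℝ) : Prop :=
  ∀ w0 w, Su w0 → Fam0 δ cb K f w0 w → ∀ m B c, 0 ≤ c → c ≤ B → WB s (m + 3) c w0 →
    (∀ t ∈ Icc (-1 : ℝ) 1, WB s (m + 3) c (sl f t)) →
    ∀ n, ∀ t ∈ Icc (-δ) δ, WB s m (G m B * c) (sl (w n) t)
def Q3 (s δ cb : ℝ) (G : ℕ → ℝ → ℝ) (K f : R4 → Ix → ℝ) : Prop :=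
  ∀ w0 w w0' w', Su w0 → Su w0' → Fam0 δ cb K f w0 w → Fam0 δ cb K f w0' w' → ∀ m B c,
    0 ≤ c → WB s (m + 7) B w0 → WB s (m + 7) B w0' →
    (∀ t ∈ Icc (-1 : ℝ) 1, WB s (m + 7) B (sl f t)) → WB s (m + 3) c (w0 - w0') →
    ∀ n, ∀ t ∈ Icc (-δ) δ, WB s m (G m B * c) (sl (w n - w' n) t)

theorem fam_sm {δ cb : ℝ} {K f : R4 → Ix → ℝ} {w0 : X3 → Ix → ℝ} {w : ℕ → R4 → Ix → ℝ}
    (h : Fam0 δ cb K f w0 w) (n : ℕ) : SmU (w n) univ := fun i => (h.smooth n i).1.contDiffOn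

theorem le_two (b : Bool → ℝ) (σ : Bool) : b σ ≤ |b true| + |b false| := by
  cases σ <;> linarith [le_abs_self (b true), le_abs_self (b false), abs_nonneg (b true),
    abs_nonneg (b false)]

theorem cont_of {k1 k2 k' : Dat} (h1 : Sta k1) (h2 : Sta k2) {s δ cb c τ : ℝ} (hs : 0 < s)
    {G : ℕ → ℝ → ℝ} {K f : Bool → R4 → Ix → ℝ} (hτ : τ ∈ Icc (-δ) δ) (sK : ∀ σ, SmU (K σ) univ)
    (hK : ∀ m, ∃ B, ∀ σ i, Sb m (fun z => K σ (τ, z) i) B)
    (hf : ∀ m, ∃ e, ∀ σ, ∀ t ∈ Icc (-1 : ℝ) 1, WB s m e (sl (f σ) t))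
    (q2 : ∀ σ, Q2 s δ cb G (K σ) (f σ)) (q3 : ∀ σ, Q3 s δ cb G (K σ) (f σ))
    {O : Set (DS (mix k1 k2) s)} {S : O → DS k' s} {w : O → Bool → ℕ → R4 → Ix → ℝ}
    (hw : ∀ d σ, Su (wd (K σ) (Ud d.1.1 σ)) ∧
      Fam0 δ cb (K σ) (f σ) (wd (K σ) (Ud d.1.1 σ)) (w d σ) ∧
      (∀ m, ∃ c, WB s m c (wd (K σ) (Ud d.1.1 σ))) ∧ ∀ z, r2 z ≤ 2 → ∀ n : ℕ, |z.1| + 2 ≤ n →
        Rep c (S d).1 σ z (sl (K σ + w d σ n) τ)) : Continuous S := by
  refine continuous_iff_continuousAt.2 fun d => P354T2.tendsto_iff_pm.2 fun m η e0 => ?_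
  obtain ⟨C1, η1, c1, e1, hL⟩ := lip_wd P354M2.mixThm h1 h2 hs d.1 (m + 7)
  obtain ⟨B0, hB0⟩ := hK m
  obtain ⟨e, he⟩ := hf (m + 7)
  choose b hb using fun σ => (hw d σ).2.2.1 (m + 7)
  obtain ⟨B, b0, b1, b2⟩ : ∃ B, 0 ≤ B ∧ e ≤ B ∧ ∀ σ, C1 * η1 + b σ ≤ B :=
    ⟨|e| + C1 * η1 + (|b true| + |b false|), by positivity, by
      linarith [le_abs_self e, mul_nonneg c1 e1.le, abs_nonneg (b true), abs_nonneg (b false)],
      fun σ => by linarith [le_two b σ, abs_nonneg e]⟩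
  obtain ⟨C2, c2, h4⟩ := est2 P354N2.pbi c m (B0 + |G m B * B|)
  obtain ⟨ν, n0, n1, n2⟩ : ∃ ν > 0, ν ≤ η1 ∧ C2 * (|G m B| * (C1 * ν)) ≤ η :=
    ⟨min η1 (η / (C2 * |G m B| * C1 + 1)), by positivity, min_le_left _ _, by
      have := (le_div_iff₀ (by positivity)).1 (min_le_right η1 (η / (C2 * |G m B| * C1 + 1)))
      have : 0 < min η1 (η / (C2 * |G m B| * C1 + 1)) := by positivity
      linarith⟩
  filter_upwards [P354T2.tendsto_iff_pm.1 (continuous_subtype_val.continuousAt (x := d))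
    (m + 7 + 2) ν n0] with d' hd'
  refine (h4 s (|G m B| * (C1 * ν)) _ _ (by positivity) (P354T2.dsm _) (P354T2.dsm _)
    fun σ z hz => ?_).trans (ENNReal.ofReal_le_ofReal n2)
  obtain ⟨n, hn⟩ := exists_nat_ge (|z.1| + 2)
  obtain ⟨u1, u2, -, u4⟩ := hw d σ
  obtain ⟨v1, v2, -, v4⟩ := hw d' σ
  have l := hL d'.1 ν n0.le n1 hd' σ (K σ)
  have g0 : WB s (m + 7) B _ := WB.mono (hb σ) le_rfl (by linarith [b2 σ, mul_nonneg c1 e1.le])
  have g1 : WB s (m + 7) B (wd (K σ) (Ud d'.1.1 σ)) := wb_bd.2 fun i y =>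
    bd_ev (Eventually.of_forall fun x => (sub_add_cancel _ _).symm)
      ((bd_add ((v1.1 i).sub (u1.1 i)) (u1.1 i) (wb_bd.1 l i y) (wb_bd.1 (hb σ) i y)).mono le_rfl
        (by rw [← add_mul]
            exact mul_le_mul_of_nonneg_right
              (by linarith [b2 σ, mul_le_mul_of_nonneg_left n1 c1]) (wt_pos s y).le))
  have g2 := fun t ht => WB.mono (he σ t ht) le_rfl b1
  have key : ∀ {w0 W}, Su w0 → Fam0 δ cb (K σ) (f σ) w0 W → WB s (m + 7) B w0 → ∀ i,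
      (ContDiff ℝ ∞ fun y => sl (K σ + W n) τ y i) ∧
        Bd m (fun y => sl (K σ + W n) τ y i) z (B0 + |G m B * B|) := fun a1 a2 a3 i =>
    ⟨(sl_sm (sK σ) τ i).add (sl_sm (fam_sm a2 n) τ i), (bd_add (sl_sm (sK σ) τ i)
      (sl_sm (fam_sm a2 n) τ i) (fun α hα => hB0 σ i α hα z) (wb_bd.1 (WB.mono (q2 σ _ _ a1 a2 m B B
        b0 le_rfl (WB.mono a3 (by omega) le_rfl) (fun t ht => WB.mono (g2 t ht) (by omega) le_rfl)
        n τ hτ) le_rfl (le_abs_self _)) i z)).mono le_rfl (add_le_add le_rfl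
          (mul_le_of_le_one_right (abs_nonneg _) (P354IN.wt_le hs.le z)))⟩
  refine ⟨_, _, v4 z hz n hn, u4 z hz n hn, fun i => ⟨(key v1 v2 g1 i).1, (key u1 u2 g0 i).1,
    (key v1 v2 g1 i).2, (key u1 u2 g0 i).2, ?_⟩⟩
  refine bd_ev (Eventually.of_forall fun y => ?_) (wb_bd.1 (WB.mono (q3 σ _ _ _ _ v1 u1 v2 u2 m B
    (C1 * ν) (by positivity) g1 g0 g2 (WB.mono l (by omega) le_rfl) n τ hτ) le_rfl
    (mul_le_mul_of_nonneg_right (le_abs_self _) (by positivity))) i z)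
  simp only [sl, Pi.add_apply, Pi.sub_apply, add_sub_add_left_eq_sub]

/-- **STEP.** -/
theorem step_of (h1 : SHORT) (hS : STRIP) (hE : EXTR) : STEP := by
  intro p0 k ε0 δ1 C K kd s T F hs
  have hX := P354M2.mixThm
  have s0 : 0 < s := by linarith
  obtain ⟨k0, e0, d1, d1'⟩ := F.pos
  obtain ⟨C', hC'⟩ := P354SR.src p0 k ε0 δ1 C K kd F
  obtain ⟨δS, dS, dS1, cb, G, hSh⟩ :=
    h1 s (fun m => |C' m| * Real.exp (k / 2) + k / 2 + |C' m|) hs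
  obtain ⟨cb', a1, a2, a3⟩ : ∃ cb', cb ≤ cb' ∧ |C' 0| * Real.exp (k / 2) + k / 2 + |C' 0| ≤ cb' ∧
      |C 0| * Real.exp (k / 2) + k / 2 ≤ cb' + cb' :=
    ⟨max cb (max _ _), le_max_left _ _, le_max_of_le_right (le_max_left _ _),
      (le_max_of_le_right (le_max_right _ _)).trans (le_add_of_nonneg_left
        (le_max_of_le_right (le_max_of_le_right (by positivity))))⟩
  obtain ⟨μ, m0, hμ⟩ := ex hS hE cb'
  obtain ⟨c, hc, B, hG⟩ := F.geo T (0 + 2)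
  obtain ⟨B', hB'⟩ := hX.2.1 (0 + 2) B
  obtain ⟨ηg, eg, hg⟩ := hX.2.2.1 c B' (0 + 2) hc
  obtain ⟨CL, c0, -, q0, hL⟩ := P354M2.lip2 (c / 2) (max B (B' + 1)) 4 0 (half_pos hc)
  replace hL := fun d (g : Geo (c / 2) (max B (B' + 1)) (0 + 2) d) σ z hz =>
    (hL 0 0 d d le_rfl le_rfl g g (by rw [P354T.pm_self]; exact zero_le) σ z hz).2.1
  obtain ⟨δ, j0, j1, j2, j3⟩ : ∃ δ > 0, δ ≤ δS ∧ δ ≤ μ ∧ δ ≤ δ1 :=
    ⟨min δS (min μ δ1), by positivity, min_le_left _ _, min_le_of_right_le (min_le_left _ _),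
      min_le_of_right_le (min_le_right _ _)⟩
  refine ⟨δ / 2, by positivity, fun m1 η1 e1 => ?_⟩
  have hest := fun m B => est hX P354N2.pbi (Real.exp (-(6 * (cb' + cb'))) * c0) m B s0.le
  obtain ⟨Ce, ce, hes⟩ := hest m1 (|C m1| * Real.exp (k / 2) + k / 2 + 1)
  obtain ⟨ν, n0, n1, n2, n3⟩ :
      ∃ ν > 0, ν ≤ 1 ∧ |G m1 1| * ν ≤ 1 ∧ Ce * (ν + |G m1 1| * ν) < η1 := by
    have g0 := abs_nonneg (G m1 1)
    have t1 : ContinuousAt (fun ν : ℝ => |G m1 1| * ν) 0 := by fun_prop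
    have t2 : ContinuousAt (fun ν : ℝ => Ce * (ν + |G m1 1| * ν)) 0 := by fun_prop
    obtain ⟨ν, ⟨⟨x1, x2⟩, x3⟩, x4⟩ := (((((eventually_lt_nhds zero_lt_one).and
      (t1.eventually_lt_const (u := 1) (by simp))).and
      (t2.eventually_lt_const (u := η1) (by simpa using e1))).filter_mono nhdsWithin_le_nhds).and
      (self_mem_nhdsWithin (s := Ioi (0 : ℝ)))).exists
    exact ⟨ν, x4, x1.le, x2.le, x3⟩
  obtain ⟨η', e', ε1, e1', hN⟩ := P354N2.near2 hX p0 k ε0 δ1 C K kd s T (m1 + 12) F s0.le ν n0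
  obtain ⟨ε2, e2, hsrc⟩ := hC' (m1 + 3) (ν / (Real.exp k * 5 ^ (s / 2))) (by positivity)
  obtain ⟨ε3, e3, hcont⟩ := F.cont m1 (ν / (2 * Real.exp (k / 2))) (by positivity)
  refine ⟨m1 + 12 + 2, min η' ηg, by positivity, min (min ε0 ε1) (min ε2 ε3), by positivity,
    fun p hp q hq t ht t' ht' htt => ?_⟩
  simp only [Metric.mem_ball, lt_min_iff] at hp hq
  obtain ⟨⟨p1, p2⟩, p3, p4⟩ := hp
  obtain ⟨⟨q1, q2⟩, q3, q4⟩ := hq
  have hτ : |t' - t| < δ := by linarith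
  have τ1 : |t' - t| ≤ 1 := by linarith
  have τ2 := (abs_le.1 τ1).1
  have τ3 : t' - t ∈ Icc (-δS) δS := abs_le.1 (by linarith)
  have bs := hsrc p p3 q q3 t ht.1
  have r1 : Real.exp (-k * t) ≤ 1 := Real.exp_le_one_iff.2 (by nlinarith [ht.1])
  have bd := fun σ m τ (hτ : τ ∈ Icc (-1 : ℝ) 1) i => And.intro
    ((bs_bd k0 (bs σ) r1 hτ.1 m i).mono le_rfl (le_add_of_nonneg_right (abs_nonneg (C' m))))
    (((bs σ).all m τ hτ i).mono le_rfl ((le_abs_self _).trans (le_add_of_nonneg_left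
      (b := |C' m| * Real.exp (k / 2) + k / 2) (by positivity))))
  have sh := fun σ => hSh _ _ (bs σ).smooth.1 (bs σ).smooth.2 (bd σ) (bs σ).supp
  have hf := fun m σ τ (hτ : τ ∈ Icc (-1 : ℝ) 1) =>
    f_wb s0.le (abs_le.2 hτ) (bs σ).supp fun i => (bd σ m τ hτ i).2
  have hl := half_le_self hc.le
  have rp := fun p hp σ z hz => rep_kf (z := z) F hp ht.1 ht'.1 (hτ.trans_le j3) q0 a3 σ
    (hL _ (P354N2.geo_mono (hG p hp t ht) hl (le_max_left _ _)) σ) hz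
  have sA := fun p hp σ => (F.smooth p hp t ht.1 σ).1
  have bA := fun p hp σ m i => kf_bd (p := p) F hp ht.1 τ2 σ m i
  have sm' := (hB' c _ _ (hG p p1 t' ht') (hG q q1 t' ht')).1.1
  have fw := P354N2.finw hX p0 k ε0 δ1 C K kd s
  have main : ∀ d : Bl (mix (kd p t) (kd q t)) s (m1 + 12 + 2) (min η' ηg),
      ∃ (d' : DS (mix (kd p t') (kd q t')) s) (w : Bool → ℕ → R4 → Ix → ℝ),
        (d' ∈ Bl (mix (kd p t') (kd q t')) s m1 η1 ∧ Ev (t' - t) d.1.1 d'.1) ∧ ∀ σ,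
        Su (wd (KI (K p t σ) (K q t σ)) (Ud d.1.1 σ)) ∧
        Fam0 δS cb (KI (K p t σ) (K q t σ)) (FI (K p t σ) (K q t σ))
          (wd (KI (K p t σ) (K q t σ)) (Ud d.1.1 σ)) (w σ) ∧
        (∀ m, ∃ c, WB s m c (wd (KI (K p t σ) (K q t σ)) (Ud d.1.1 σ))) ∧
        ∀ z, r2 z ≤ 2 → ∀ n : ℕ, |z.1| + 2 ≤ n → Rep (Real.exp (-(6 * (cb' + cb'))) * c0) d'.1 σ z
          (sl (KI (K p t σ) (K q t σ) + w σ n) (t' - t)) := by
    rintro ⟨⟨d, hd⟩, hb⟩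
    have hb : pm s _ d _ < _ := hb
    have nr := hN p p2 q q2 t ht d hd (hb.trans_le (ENNReal.ofReal_le_ofReal (min_le_left _ _)))
    have su : ∀ σ, Su _ := fun σ =>
      ⟨(nr σ).2.smooth, fun z hz => (nr σ).2.supp z (by linarith)⟩
    have wb : ∀ σ, WB s (m1 + 12) ν _ := fun σ => (nr σ).2.bound
    choose w hw using fun σ => (sh σ).1 _ (su σ) (WB.mono (wb σ) (by omega) n1)
    obtain ⟨d', v1, v2, v3, v4⟩ := hμ δ ⟨j0, j2⟩ δS c0 (t' - t) d _ _ w j1 (by linarith) q0 hτ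
      ⟨hd.smooth, hd.pos⟩ (fun σ => ⟨(bs σ).smooth.1, fun x hx i =>
        ((bd σ 0 x.1 (abs_le.1 (by linarith)) i).1 [] le_rfl x.2).trans a2, fun x hx =>
        (bs σ).sol x (by linarith [(abs_lt.1 hx).1]), (nr σ).1,
        P354SH.fam0_mono (hw σ) le_rfl a1⟩)
      (hL _ (P354N2.geo_mono (hg s _ d s0.le (hB' c _ _ (hG p p1 t ht) (hG q q1 t ht))
        ⟨hd.smooth, hd.pos⟩ ((P354T.pm_mono s (by omega) _ _).trans
          (hb.le.trans (ENNReal.ofReal_le_ofReal (min_le_right _ _))))) le_rfl (le_max_right _ _)))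
    have hR := fun σ z hz => And.intro (rp p p1 σ z hz) (And.intro (rp q q1 σ z hz)
      ((exists_nat_ge (|z.1| + 2)).imp (v4 σ z hz)))
    refine ⟨⟨d', v1.1, v1.2, fun m => ?_, fun y hy => (v2 y hy).1, fun y hy => (v2 y hy).2⟩, w,
      ⟨?_, v3⟩, fun σ => ⟨su σ, hw σ, fun m => fw m F s0 p p1 q q1 t ht.1 d hd σ, v4 σ⟩⟩
    · choose b hb using fw (m + 3) F s0 p p1 q q1 t ht.1 d hd
      obtain ⟨D, b0, b1, b2⟩ : ∃ D, 0 ≤ D ∧ (|C' (m + 3)| * Real.exp (k / 2) + k / 2 +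
          |C' (m + 3)|) * 5 ^ (s / 2) ≤ D ∧ ∀ σ, b σ ≤ D :=
        ⟨_ + (|b true| + |b false|), by positivity, le_add_of_nonneg_right (by positivity),
          fun σ => (le_two b σ).trans (le_add_of_nonneg_left (by positivity))⟩
      obtain ⟨C1, -, h⟩ := hest m (|C m| * Real.exp (k / 2) + k / 2 + |G m D * D|)
      have x0 := le_add_of_nonneg_right (a := |C m| * Real.exp (k / 2) + k / 2)
        (abs_nonneg (G m D * D))
      exact (h _ |G m D * D| _ _ _ w _ _ d' (by positivity) (abs_nonneg _)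
        (le_add_of_nonneg_left (by positivity)) τ1 v1.1 sm' (fun σ => ⟨sA p p1 σ, sA q q1 σ,
          fun i => ⟨(bA p p1 σ m i).mono le_rfl x0, (bA q q1 σ m i).mono le_rfl x0, fun α hα z =>
            bd_sub (sl_sm (sA p p1 σ) _ i) (sl_sm (sA q q1 σ) _ i)
              (fun α hα => bA p p1 σ m i α hα z) (fun α hα => bA q q1 σ m i α hα z) α hα⟩⟩)
        (fun σ n => ⟨fam_sm (hw σ) n, WB.mono ((sh σ).2.1 _ _ (su σ) (hw σ) m D D b0 le_rfl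
          (WB.mono (hb σ) le_rfl (b2 σ)) (fun τ hτ => WB.mono (hf _ σ τ hτ) le_rfl b1) n _ τ3)
          le_rfl (le_abs_self _)⟩) hR).trans_lt ENNReal.ofReal_lt_top
    · have x0 := le_add_of_nonneg_right (a := |C m1| * Real.exp (k / 2) + k / 2) zero_le_one
      have x1 : ν / (2 * Real.exp (k / 2)) * Real.exp (-k * (t' - t) / 2) ≤ ν / 2 :=
        (mul_le_mul_of_nonneg_left (Real.exp_le_exp.2 (by nlinarith : _ ≤ k / 2))
          (by positivity)).trans (le_of_eq (by field_simp))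
      have o0 := sA p0 (Metric.mem_ball_self e0)
      refine (hes ν (|G m1 1| * ν) _ _ _ w _ _ d' n0.le (by positivity)
        (n2.trans (le_add_of_nonneg_left (by positivity))) τ1 v1.1 sm' (fun σ =>
          ⟨sA p p1 σ, sA q q1 σ, fun i => ⟨(bA p p1 σ m1 i).mono le_rfl x0,
            (bA q q1 σ m1 i).mono le_rfl x0, fun α hα z => ?_⟩⟩)
        (fun σ n => ⟨fam_sm (hw σ) n, WB.mono ((sh σ).2.1 _ _ (su σ) (hw σ) m1 1 ν n0.le n1
          (WB.mono (wb σ) (by omega) le_rfl) (fun τ hτ => WB.mono (f_wb s0.le (abs_le.2 hτ)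
            (bs σ).supp ((bs σ).src τ hτ.1)) le_rfl ?_) n _ τ3) le_rfl
          (mul_le_mul_of_nonneg_right (le_abs_self _) n0.le)⟩) hR).trans_lt
        ((ENNReal.ofReal_lt_ofReal_iff e1).2 n3)
      · refine bd_ev (Eventually.of_forall fun y => (sub_sub_sub_cancel_right _ _ _).symm)
          ((bd_sub ((sl_sm (sA p p1 σ) _ i).sub (sl_sm (o0 σ) _ i))
            ((sl_sm (sA q q1 σ) _ i).sub (sl_sm (o0 σ) _ i))
            (fun α hα => (hcont p p4 t ht.1 σ _ τ2 i).1 α hα z)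
            (fun α hα => (hcont q q4 t ht.1 σ _ τ2 i).1 α hα z)).mono le_rfl (by linarith)) α hα
      · exact (mul_le_mul_of_nonneg_right (mul_le_mul_of_nonneg_left
          (Real.exp_le_exp.2 (by nlinarith [hτ.1] : _ ≤ k)) (by positivity))
          (by positivity)).trans (le_of_eq (by field_simp))
  choose S w h2 h3 using main
  exact ⟨S, cont_of (F.sta p p1 t ht.1).1 (F.sta q q1 t ht.1).1 s0 τ3 (fun σ => (bs σ).smooth.1)
    (fun m => ⟨_, fun σ i => (bd σ m _ (abs_le.1 τ1) i).1⟩) (fun m => ⟨_, hf m⟩)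
    (fun σ => (sh σ).2.1) (fun σ => (sh σ).2.2) h3, h2⟩

end Vale.Agent.P354SP
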