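import Vale.Agent.P354SP.Defs
import Vale.Agent.P354SR.Main
import Vale.Agent.P354QF.Full
import Vale.Agent.P354IN.Main
import Vale.Agent.P354J.Lip

/-!
The induced data as smooth functions of the unknowns, and their estimates.
-/

open scoped ContDiff
open Set Filter Topology

noncomputable section

namespace Vale.Agent.P354SP

open Vale.Agent.P354n (R4)
open Vale.Agent.P354H (X3 pdl pd e Sb tr pdl_zero)
open Vale.Agent.P354C
open Vale.Agent.P354I (Dat r2 pm psi KI mix MIX PBI)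
open Vale.Agent.P354J (Bd Tm wt pb hf Kf Ind)
open Vale.Agent.P354JP (bd_add bd_mul)
open Vale.Agent.P354IN (pdl_ev)

/-! ### The regularised inverse -/

/-- A smooth function which is the inverse for |x| ≥ c / 2. -/
def io (c x : ℝ) : ℝ := x / (x ^ 2 + Real.smoothTransition (1 - 4 * x ^ 2 / c ^ 2))

theorem io_sm (c : ℝ) : ContDiff ℝ ∞ (io c) := by
  refine contDiff_id.div ((contDiff_id.pow 2).add
    (Real.smoothTransition.contDiff.comp (by fun_prop))) fun x => ?_
  by_cases h : x = 0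
  · simp [h]
  · exact (add_pos_of_pos_of_nonneg (sq_pos_of_ne_zero h) (Real.smoothTransition.nonneg _)).ne'

theorem io_eq {c x : ℝ} (hc : 0 < c) (h : c / 2 ≤ |x|) : io c x = x⁻¹ := by
  have h0 : x ≠ 0 := abs_pos.1 ((half_pos hc).trans_le h)
  have h1 : c ^ 2 ≤ 4 * x ^ 2 := by nlinarith [sq_abs x]
  rw [io, Real.smoothTransition.zero_of_nonpos
    (sub_nonpos.2 ((one_le_div (by positivity)).2 h1)), add_zero]
  field_simp

/-- The coframe with r in place of the inverse of det P. -/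
def thr (r : ℝ) (U : Ix → ℝ) (a : R4) : Fin 4 → ℝ :=
  ![(a.1 + a.2.1) / 2, (a.1 - a.2.1) / 2,
    (U .P22 * (a.2.2.1 - U .b1 * ((a.1 + a.2.1) / 2)) -
      U .P21 * (a.2.2.2 - U .b2 * ((a.1 + a.2.1) / 2))) * r,
    (U .P11 * (a.2.2.2 - U .b2 * ((a.1 + a.2.1) / 2)) -
      U .P12 * (a.2.2.1 - U .b1 * ((a.1 + a.2.1) / 2))) * r]

theorem th_eq (U : Ix → ℝ) (a : R4) : th U a = thr (detP U)⁻¹ U a := by
  simp only [th, thr, div_eq_mul_inv]

theorem sm_ap (i : Ix) : ContDiff ℝ ∞ fun U : Ix → ℝ => U i := contDiff_apply ℝ ℝ i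

theorem thr_sm (c : ℝ) (a : R4) (k : Fin 4) :
    ContDiff ℝ ∞ fun U : Ix → ℝ => thr (io c (detP U)) U a k := by
  have h : ContDiff ℝ ∞ fun U : Ix → ℝ => io c (detP U) :=
    (io_sm c).comp (((sm_ap _).mul (sm_ap _)).sub ((sm_ap _).mul (sm_ap _)))
  fin_cases k
  · exact contDiff_const
  · exact contDiff_const
  · exact (((sm_ap _).mul (contDiff_const.sub ((sm_ap _).mul contDiff_const))).sub
      ((sm_ap _).mul (contDiff_const.sub ((sm_ap _).mul contDiff_const)))).mul h
  · exact (((sm_ap _).mul (contDiff_const.sub ((sm_ap _).mul contDiff_const))).sub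
      ((sm_ap _).mul (contDiff_const.sub ((sm_ap _).mul contDiff_const)))).mul h

theorem gam_sm (i k : Fin 4) : ContDiff ℝ ∞ fun U : Ix → ℝ => Gam U i 0 k + Gam U i 1 k := by
  fin_cases i <;> fin_cases k <;> simp [Gam] <;> fun_prop

/-- The index set of the components of the data. -/
abbrev J : Type := Bool × Fin 3 × Fin 3

/-- The components of the induced data as smooth functions of the unknowns. -/
def FF (c : ℝ) (j : J) (U : Ix → ℝ) : ℝ :=
  bif j.1 then U .O ^ 2 * eta (thr (io c (detP U)) U (0, e j.2.1)) (thr (io c (detP U)) U (0, e j.2.2))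
  else U .O * ∑ i, ∑ k, thr (io c (detP U)) U (0, e j.2.1) i * (Gam U i 0 k + Gam U i 1 k) *
    thr (io c (detP U)) U (0, e j.2.2) k

theorem FF_sm (c : ℝ) (j : J) : ContDiff ℝ ∞ (FF c j) := by
  obtain ⟨b, a, a'⟩ := j
  have t := thr_sm c
  cases b
  · exact (sm_ap _).mul (ContDiff.sum fun i _ => ContDiff.sum fun k _ =>
      ((t _ i).mul (gam_sm i k)).mul (t _ k))
  · exact ((sm_ap _).pow 2).mul ((((contDiff_const.mul (((t _ 0).mul (t _ 1)).add
      ((t _ 1).mul (t _ 0)))).neg).add ((t _ 2).mul (t _ 2))).add ((t _ 3).mul (t _ 3)))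

/-- The components of the data in a chart. -/
def pbj (d : Dat) (σ : Bool) (j : J) (y : X3) : ℝ :=
  bif j.1 then pb σ d.h y j.2.1 j.2.2 else pb σ d.K y j.2.1 j.2.2

/-- Near z the data d are induced by V. -/
def Rep (c : ℝ) (d : Dat) (σ : Bool) (z : X3) (V : X3 → Ix → ℝ) : Prop :=
  ∀ j, pbj d σ j =ᶠ[𝓝 z] fun y => FF c j (V y)

theorem rep_of {c : ℝ} {d : Dat} {σ : Bool} {z : X3} {V : X3 → Ix → ℝ} (hc : 0 < c)
    (hV : ∀ i, ContDiff ℝ ∞ fun y => V y i) (h1 : c ≤ |detP (V z)|)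
    (h2 : ∀ᶠ y in 𝓝 z, Ind (V y) (pb σ d.h y) (pb σ d.K y)) : Rep c d σ z V := by
  have ct : Continuous fun y => |detP (V y)| := (((hV _).continuous.mul (hV _).continuous).sub
    ((hV _).continuous.mul (hV _).continuous)).abs
  rintro ⟨b, a, a'⟩
  filter_upwards [h2, (isOpen_lt continuous_const ct).mem_nhds ((half_lt_self hc).trans_le h1)]
    with y hy hy'
  cases b
  · simp only [pbj, FF, cond_false, io_eq hc (le_of_lt hy'), ← th_eq]
    exact (hy a a').2.symm
  · simp only [pbj, FF, cond_true, io_eq hc (le_of_lt hy'), ← th_eq]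
    exact (hy a a').1.symm

theorem pbj_mix (hX : MIX) (k k' : Dat) (σ : Bool) (j : J) (y : X3) :
    pbj (mix k k') σ j y = Real.smoothTransition y.1 * pbj k σ j y +
      (1 - Real.smoothTransition y.1) * pbj k' σ j y := by
  obtain ⟨b, a, a'⟩ := j
  cases b
  · simp only [pbj, cond_false, (hX.2.2.2 k k' σ y).2]
    rfl
  · simp only [pbj, cond_true, (hX.2.2.2 k k' σ y).1]
    rfl

theorem pm_of (hP : PBI) (m : ℕ) : ∃ C, 0 ≤ C ∧ ∀ (s ε : ℝ) (d d' : Dat), 0 ≤ ε → P354T.DSm d →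
    P354T.DSm d' → (∀ σ (z : X3), r2 z ≤ 2 → ∀ j,
      Bd m (fun y => pbj d σ j y - pbj d' σ j y) z (ε * wt s z)) →
    pm s m d d' ≤ ENNReal.ofReal (C * ε) := by
  obtain ⟨C, c0, hC⟩ := hP m
  refine ⟨18 * C, by positivity, fun s ε d d' e0 h1 h2 h => ?_⟩
  rw [mul_assoc]
  refine P354T.pm_le_of (by positivity) fun i j => ⟨?_, ?_⟩
  · exact hC s ε (fun y => d.h y - d'.h y) e0 (fun i j => (h1 i j).1.sub (h2 i j).1)
      (fun σ z hz a b => by
        simp only [P354J.pb_sub]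
        exact h σ z hz (true, a, b)) i j
  · exact hC s ε (fun y => d.K y - d'.K y) e0 (fun i j => (h1 i j).2.sub (h2 i j).2)
      (fun σ z hz a b => by
        simp only [P354J.pb_sub]
        exact h σ z hz (false, a, b)) i j

/-! ### Lower bound of the determinant -/

theorem ode_low {f c : ℝ → ℝ} (hc : Continuous c) {t L : ℝ}
    (h : ∀ s ∈ uIcc 0 t, HasDerivAt f (c s * f s) s ∧ |c s| ≤ L) :
    Real.exp (-(L * |t|)) * |f 0| ≤ |f t| := by
  have hF : ∀ s, HasDerivAt (fun s => ∫ x in (0 : ℝ)..s, c x) (c s) s :=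
    fun s => (hc.integral_hasStrictDerivAt 0 s).hasDerivAt
  have hg : ∀ s ∈ uIcc 0 t, HasDerivAt (fun s => Real.exp (-∫ x in (0 : ℝ)..s, c x) * f s) 0 s :=
    fun s hs => ((hF s).fun_neg.exp.fun_mul (h s hs).1).congr_deriv (by ring)
  have h1 := (convex_uIcc 0 t).norm_image_sub_le_of_norm_hasDerivWithin_le (C := 0)
    (fun s hs => (hg s hs).hasDerivWithinAt) (fun _ _ => by simp) left_mem_uIcc right_mem_uIcc
  simp only [zero_mul, norm_le_zero_iff, sub_eq_zero, intervalIntegral.integral_same, neg_zero,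
    Real.exp_zero, one_mul] at h1
  have h2 : ‖∫ x in (0 : ℝ)..t, c x‖ ≤ L * |t - 0| :=
    intervalIntegral.norm_integral_le_of_norm_le_const fun x hx => (h x (uIoc_subset_uIcc hx)).2
  rw [sub_zero, Real.norm_eq_abs] at h2
  rw [← h1, abs_mul, abs_of_pos (Real.exp_pos _), ← mul_assoc, ← Real.exp_add]
  exact mul_le_of_le_one_left (abs_nonneg _)
    (Real.exp_le_one_iff.2 (by linarith [neg_abs_le (∫ x in (0 : ℝ)..t, c x)]))

theorem det_low {V : R4 → Ix → ℝ} (hV : SmU V univ) {t B c : ℝ} {z : X3} (ht : |t| ≤ 1)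
    (hB : 0 ≤ B) (h : ∀ s ∈ uIcc 0 t, Solves V (s, z.1 + t - s, z.2) ∧
      ∀ i, |V (s, z.1 + t - s, z.2) i| ≤ B) (h0 : c ≤ detP (V (0, z.1 + t, z.2))) :
    Real.exp (-(6 * B)) * c ≤ |detP (V (t, z))| := by
  have ln := P354QF.line_n hV
  have ct : ∀ i, Continuous fun s : ℝ => V (s, z.1 + t - s, z.2) i := fun i =>
    continuous_iff_continuousAt.2 fun s => (ln i _ _ s).continuousAt
  have hr := ode_low (f := fun s => detP (V (s, z.1 + t - s, z.2))) (L := 6 * B)
    (((ct .omb).sub (ct .Y11)).sub (ct .Y22) |>.const_mul 2) (t := t) fun s hs =>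
      ⟨(((ln .P11 _ _ s).fun_mul (ln .P22 _ _ s)).fun_sub
        ((ln .P12 _ _ s).fun_mul (ln .P21 _ _ s))).congr_deriv (by
      have h1 := (h s hs).1 .P11
      have h2 := (h s hs).1 .P12
      have h3 := (h s hs).1 .P21
      have h4 := (h s hs).1 .P22
      simp only [res, resN, resL, cN, cL, angN, angL, linN, linL, quadN, quadL, angS, linS, quadS,
        List.map, List.sum_cons, List.sum_nil, Int.cast_ofNat, Int.cast_neg, Int.cast_one,
        Int.cast_zero] at h1 h2 h3 h4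
      simp only [detP, Pi.sub_apply]
      generalize V (s, z.1 + t - s, z.2) = u at *
      linear_combination u .P22 * h1 + u .P11 * h4 - u .P21 * h2 - u .P12 * h3), by
      have h1 := abs_le.1 ((h s hs).2 .omb)
      have h2 := abs_le.1 ((h s hs).2 .Y11)
      have h3 := abs_le.1 ((h s hs).2 .Y22)
      simp only [Pi.sub_apply]
      exact abs_le.2 ⟨by linarith, by linarith⟩⟩
  simp only [add_sub_cancel_right, sub_zero] at hr
  refine le_trans ?_ hr
  exact (mul_le_mul_of_nonneg_left (h0.trans (le_abs_self _)) (Real.exp_pos _).le).trans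
    (mul_le_mul_of_nonneg_right (Real.exp_le_exp.2 (by nlinarith)) (abs_nonneg _))

/-! ### Pointwise bounds -/

section
variable {m : ℕ} {f g : X3 → ℝ} {z : X3} {c d : ℝ}

theorem bd_ev (h : f =ᶠ[𝓝 z] g) (H : Bd m g z c) : Bd m f z c :=
  fun α hα => pdl_ev α h ▸ H α hα

theorem bd_null (h : f =ᶠ[𝓝 z] 0) (hc : 0 ≤ c) : Bd m f z c :=
  bd_ev h fun α _ => by rw [pdl_zero]; simpa using hc

theorem bd_const (H : Bd m (fun y => f y - d) z c) : Bd m f z (c + |d|) := fun α hα => by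
  cases α with
  | nil =>
    have := abs_add_le (f z - d) d
    rw [sub_add_cancel] at this
    exact this.trans (add_le_add (H [] hα) le_rfl)
  | cons j α =>
    have e1 : pd j (fun y => f y - d) = pd j f := funext fun y => by
      simp only [pd, fderiv_sub_const]
    have := H (j :: α) hα
    rw [pdl, e1] at this
    exact this.trans (le_add_of_nonneg_right (abs_nonneg _))

theorem bd_neg (H : Bd m f z c) : Bd m (fun y => -f y) z c := fun α hα => by
  have := H α hα
  rw [← norm_neg, ← Pi.neg_apply, ← P354H.pdl_neg] at this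
  exact this

theorem bd_sub (hf : ContDiff ℝ ∞ f) (hg : ContDiff ℝ ∞ g) (h : Bd m f z c) (h' : Bd m g z d) :
    Bd m (fun y => f y - g y) z (c + d) := by
  simp only [sub_eq_add_neg]
  exact bd_add hf hg.neg h (bd_neg h')

theorem wt_low {s : ℝ} (hs : 0 ≤ s) (h : |z.1| ≤ 2) : 1 ≤ 5 ^ (s / 2) * wt s z := by
  have h1 : 1 + z.1 ^ 2 ≤ 5 := by nlinarith [sq_abs z.1, abs_nonneg z.1]
  have h2 : (0 : ℝ) < 1 + z.1 ^ 2 := by positivity
  rw [P354IN.wt_eq, neg_div, Real.rpow_neg h2.le, ← div_eq_mul_inv, one_le_div (by positivity)]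
  exact Real.rpow_le_rpow h2.le h1 (by linarith)

/-- A function which vanishes near the points with |x| > 2 has weighted bounds. -/
theorem bd_wt {s : ℝ} (hs : 0 ≤ s) (H : Bd m f z c) (h : f =ᶠ[𝓝 z] 0 ∨ |z.1| ≤ 2) :
    Bd m f z (c * 5 ^ (s / 2) * wt s z) := by
  have c0 := H.nonneg
  have w0 := (P354JP.wt_pos s z).le
  rcases h with h | h
  · exact bd_null h (by positivity)
  · rw [mul_assoc]
    exact H.mono le_rfl (le_mul_of_one_le_right c0 (wt_low hs h))

end

/-- The cut-off functions. -/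
def st (c : ℝ) (y : X3) : ℝ := Real.smoothTransition (y.1 + c)

theorem st_sm (c : ℝ) : ContDiff ℝ ∞ (st c) :=
  Real.smoothTransition.contDiff.comp (contDiff_fst.add contDiff_const)

theorem st_bd (m : ℕ) : ∃ S, 0 ≤ S ∧ ∀ c z, Bd m (st c) z S ∧ Bd m (fun y => 1 - st c y) z S := by
  obtain ⟨S, h⟩ := P354AE.sb_st m 1 (by simp)
  have h1 : ∀ c z, Bd m (st c) z S := fun c z α hα => by
    have := h.tr (c, 0) α hα z
    rwa [show tr ((c, 0) : X3) (fun z : X3 => Real.smoothTransition (1 * z.1)) = st c from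
      funext fun y => by simp [tr, st]] at this
  refine ⟨S + 1, by linarith [h.nonneg], fun c z => ⟨(h1 c z).mono le_rfl (by linarith), ?_⟩⟩
  have := bd_const (f := fun y => 1 - st c y) (d := 1) (c := S) (z := z) (m := m)
    (by simpa using bd_neg (h1 c z))
  simpa using this

theorem st_zero {c : ℝ} {z : X3} (h : z.1 + c < 0) : ∀ᶠ y in 𝓝 z, st c y = 0 := by
  filter_upwards [(isOpen_lt (f := fun y : X3 => y.1 + c) (by fun_prop) continuous_const).mem_nhds h]
    with y hy using Real.smoothTransition.zero_of_nonpos (le_of_lt hy)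

theorem st_one {c : ℝ} {z : X3} (h : 1 < z.1 + c) : ∀ᶠ y in 𝓝 z, st c y = 1 := by
  filter_upwards [(isOpen_lt (g := fun y : X3 => y.1 + c) continuous_const (by fun_prop)).mem_nhds h]
    with y hy using Real.smoothTransition.one_of_one_le (le_of_lt hy)

/-- Lipschitz bound for a smooth function of the unknowns. -/
theorem lipF {F : (Ix → ℝ) → ℝ} (hF : ContDiff ℝ ∞ F) (m : ℕ) (B : ℝ) : ∃ C, 0 ≤ C ∧
    ∀ (ε : ℝ) (z : X3) (V V' : X3 → Ix → ℝ), (∀ i, Tm m B ε z (fun y => V y i) fun y => V' y i) →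
      Bd m (fun y => F (V y) - F (V' y)) z (C * ε) := by
  obtain ⟨C, c0, hC⟩ := Tm.comp m (Ix → ℝ) ℝ F univ (Metric.closedBall 0 B) B isOpen_univ
    hF.contDiffOn (subset_univ _) (isCompact_closedBall _ _) (convex_closedBall _ _)
  have key : ∀ {W : X3 → Ix → ℝ} {z : X3} {c : ℝ}, (∀ i, ContDiff ℝ ∞ fun y => W y i) →
      (∀ i, Bd m (fun y => W y i) z c) → Bd m W z c := fun {W z c} h1 h2 α hα =>
    (pi_norm_le_iff_of_nonneg (h2 .O).nonneg).2 fun i => by
      have := congrFun (P354J.pdl_clm (ContinuousLinearMap.proj (R := ℝ) (φ := fun _ : Ix => ℝ) i)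
        (contDiff_pi.2 h1) α) z
      exact (congrArg _ this).symm.le.trans (h2 i α hα)
  refine ⟨C, c0, fun ε z V V' h => ?_⟩
  have b1 := key (fun i => (h i).sf) fun i => (h i).bf
  have b2 := key (fun i => (h i).sg) fun i => (h i).bg
  exact (hC ε z V V' ⟨contDiff_pi.2 fun i => (h i).sf, contDiff_pi.2 fun i => (h i).sg, b1, b2,
    key (fun i => (h i).sf.sub (h i).sg) fun i => (h i).bd⟩ (fun _ => trivial) (fun _ => trivial)
    (mem_closedBall_zero_iff.2 b1.zero) (mem_closedBall_zero_iff.2 b2.zero)).bd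

theorem lipJ (c : ℝ) (m : ℕ) (B : ℝ) : ∃ C, 0 ≤ C ∧
    ∀ (ε : ℝ) (z : X3) (V V' : X3 → Ix → ℝ), (∀ i, Tm m B ε z (fun y => V y i) fun y => V' y i) →
      ∀ j, Bd m (fun y => FF c j (V y) - FF c j (V' y)) z (C * ε) := by
  choose C c0 hC using fun j => lipF (FF_sm c j) m B
  exact ⟨∑ j, C j, Finset.sum_nonneg fun j _ => c0 j, fun ε z V V' h j => (hC j ε z V V' h).mono
    le_rfl (mul_le_mul_of_nonneg_right
      (Finset.single_le_sum (fun j _ => c0 j) (Finset.mem_univ j)) (h .O).bd.nonneg)⟩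

end Vale.Agent.P354SP
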